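import Vale.Agent.P141.H228.GaugeI
import Vale.Agent.P141.H688.RawClose
import Vale.Agent.P141.H688.NumI
import Vale.Agent.P141.H401.CStF
import Vale.Agent.P141.H163.EzTI
import Vale.Agent.P141.H501.StageR

/-!
# P141, line (A), (TI): the price of the part with the slot `Th`

* `SCapG`, `SABg`, `SCA`, `SBCg`, `SCA1`, `SBC1g q` : the statements of the six number leaves, in
  the gauge of `H228.GaugeI`; every leaf is `PairQ (FibQ S)`;
* `cstF_NT` : the price of the part with the slot `Th` for data with small fibres;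
* `cstUV_NI` : the increasing part for the data with both dense sets cut off.
-/

namespace Vale.Agent.P141.H595

open Finset Matrix
open Vale.Agent.P141.PL (Pt iv cx)
open Vale.Agent.P141.PL.H315 (Tri)
open Vale.Agent.P141.H48 (US ES BSl)
open Vale.Agent.P141.H305 (ClsM kapM)
open Vale.Agent.P141.H401 (StQ PartQ PartY CSt CStF CStUV FibQ DuS DvS cA cb mC NI)
open Vale.Agent.P141.H408 (PairQ MonoQ beI tauI gI cCI C1 PCAf TTf StageYC StageY1)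
open Vale.Agent.P141.H228.Gauge (CapsG PABg PBCg)

noncomputable section

open scoped Classical

set_option linter.unusedSectionVars false

/-! ### The leaves -/

/-- caps in the gauge -/
def SCapG : StQ := fun _ _ _ p _ ez F1 F2 F3 o K x s r U g u v Q1 _ Q3 _ =>
  CapsG (p.al U K) o K (cx K x) (beI p r) (p.lam s r) u (cA p s r U K g F1 Q1)
    (cb p s r U K u F3 Q3) (C1 p ez U K v F2) (tauI p s r) (cCI p s r)

/-- static pair `(A, Bg)` -/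
def SABg : StQ := fun ι _ _ p _ ez F1 F2 F3 o K x s r U g u v Q1 _ Q3 X =>
  ∀ h, 0 < h → h ≤ tauI p s r →
    PABg h ι (p.al U K) o K (cx K x) (fun _ _ => 0) (p.lam s r) u
      (cA p s r U K g F1 Q1) (cb p s r U K u F3 Q3) (C1 p ez U K v F2) ≤ X * (s * 8 ^ K) * h ^ 2

/-- moving pair `(Ct, A)`, full height of `A` -/
def SCA : StQ := fun ι _ _ p _ ez F1 F2 F3 o K x s r U g u v Q1 _ Q3 X =>
  ∀ y, gI p s r ≤ y → y ≤ cCI p s r →
    PCAf (beI p r) y (tauI p s r) ι (p.al U K) o K (cx K x) (fun _ _ => 0) (p.lam s r) u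
      (cA p s r U K g F1 Q1) (cb p s r U K u F3 Q3) (C1 p ez U K v F2) ≤
    X * (s * 8 ^ K) * ((p.t / r) ^ (p.e0 / 4) * (tauI p s r * y))

/-- moving pair `(Bg, Cg)`, full height of `Bg` -/
def SBCg : StQ := fun ι _ _ p _ ez F1 F2 F3 o K x s r U g u v Q1 _ Q3 X =>
  ∀ y, gI p s r ≤ y → y ≤ cCI p s r →
    PBCg (beI p r) (tauI p s r) y ι (p.al U K) o K (cx K x) (fun _ _ => 0) (p.lam s r) u
      (cA p s r U K g F1 Q1) (cb p s r U K u F3 Q3) (C1 p ez U K v F2) ≤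
    X * (s * 8 ^ K) * (tauI p s r * y)

/-- static pair `(Ct, A)`, natural -/
def SCA1 : StQ := fun ι _ _ p _ ez F1 F2 F3 o K x s r U g u v Q1 _ Q3 X =>
  ∀ y σ, 0 < σ → σ ≤ y →
    PCAf (beI p r) y σ ι (p.al U K) o K (cx K x) (fun _ _ => 0) (p.lam s r) u
      (cA p s r U K g F1 Q1) (cb p s r U K u F3 Q3) (C1 p ez U K v F2) ≤ X * (s * 8 ^ K) * y ^ 2

/-- moving pair `(Bg, Cg)`, crude, power `q` -/
def SBC1g (q : ℝ) : StQ := fun ι _ _ p _ ez F1 F2 F3 o K x s r U g u v Q1 _ Q3 X =>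
  ∀ h, 0 < h → h ≤ tauI p s r →
    PBCg (beI p r) h h ι (p.al U K) o K (cx K x) (fun _ _ => 0) (p.lam s r) u
      (cA p s r U K g F1 Q1) (cb p s r U K u F3 Q3) (C1 p ez U K v F2) ≤
    X * (s * 8 ^ K) * ((p.t / r) ^ (-q) * (h ^ 2 * (tauI p s r / h) ^ (1 / 4 : ℝ)))

/-! ### Monotonicity in the number -/

theorem mono_Cap : MonoQ SCapG := fun _ _ _ _ _ _ _ _ _ _ _ _ _ _ _ _ _ _ _ _ _ _ _ _ _ _ _ _ h => h

theorem tau_pos {p : H401.Num} {s r : ℝ} (ht : 0 < p.t) (hs : 0 < s) (hr : 1 ≤ r) :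
    0 < tauI p s r := by
  unfold H408.tauI
  have := H401.Num.th_pos (p := p) ht hs hr
  linarith

theorem g_pos {p : H401.Num} {s r : ℝ} (ht : 0 < p.t) (hs : 0 < s) (hr : 1 ≤ r) :
    0 < gI p s r := by
  unfold H408.gI
  exact mul_pos (Real.rpow_pos_of_pos (div_pos ht (by linarith)) _) (tau_pos ht hs hr)

theorem mono_AB : MonoQ SABg := by
  intro ι _ _ p n ez F1 F2 F3 o K x s r U g u v Q1 Q2 Q3 X X' ht hs hr hez hX h y hy hy'
  exact (h y hy hy').trans (mul_le_mul_of_nonneg_right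
    (mul_le_mul_of_nonneg_right hX (by positivity)) (by positivity))

theorem mono_CA : MonoQ SCA := by
  intro ι _ _ p n ez F1 F2 F3 o K x s r U g u v Q1 Q2 Q3 X X' ht hs hr hez hX h y hy hy'
  have h1 := tau_pos (p := p) ht hs hr
  have h2 : 0 < y := lt_of_lt_of_le (g_pos ht hs hr) hy
  have h3 : 0 < (p.t / r) ^ (p.e0 / 4) := Real.rpow_pos_of_pos (div_pos ht (by linarith)) _
  exact (h y hy hy').trans (mul_le_mul_of_nonneg_right
    (mul_le_mul_of_nonneg_right hX (by positivity)) (by positivity))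

theorem mono_BC : MonoQ SBCg := by
  intro ι _ _ p n ez F1 F2 F3 o K x s r U g u v Q1 Q2 Q3 X X' ht hs hr hez hX h y hy hy'
  have h1 := tau_pos (p := p) ht hs hr
  have h2 : 0 < y := lt_of_lt_of_le (g_pos ht hs hr) hy
  exact (h y hy hy').trans (mul_le_mul_of_nonneg_right
    (mul_le_mul_of_nonneg_right hX (by positivity)) (by positivity))

theorem mono_CA1 : MonoQ SCA1 := by
  intro ι _ _ p n ez F1 F2 F3 o K x s r U g u v Q1 Q2 Q3 X X' ht hs hr hez hX h y σ hσ hy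
  exact (h y σ hσ hy).trans (mul_le_mul_of_nonneg_right
    (mul_le_mul_of_nonneg_right hX (by positivity)) (by positivity))

theorem mono_BC1 (q : ℝ) : MonoQ (SBC1g q) := by
  intro ι _ _ p n ez F1 F2 F3 o K x s r U g u v Q1 Q2 Q3 X X' ht hs hr hez hX h y hy hy'
  have h1 := tau_pos (p := p) ht hs hr
  have h3 : 0 < (p.t / r) ^ (-q) := Real.rpow_pos_of_pos (div_pos ht (by linarith)) _
  have h4 : 0 < (tauI p s r / y) ^ (1 / 4 : ℝ) := Real.rpow_pos_of_pos (div_pos h1 hy) _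
  exact (h y hy hy').trans (mul_le_mul_of_nonneg_right
    (mul_le_mul_of_nonneg_right hX (by positivity)) (by positivity))

/-- two statements together -/
def andQ (Φ1 Φ2 : StQ) : StQ := fun ι _ _ p n ez F1 F2 F3 o K x s r U g u v Q1 Q2 Q3 X =>
  Φ1 ι p n ez F1 F2 F3 o K x s r U g u v Q1 Q2 Q3 X ∧
    Φ2 ι p n ez F1 F2 F3 o K x s r U g u v Q1 Q2 Q3 X

theorem mono_and {Φ1 Φ2 : StQ} (m1 : MonoQ Φ1) (m2 : MonoQ Φ2) : MonoQ (andQ Φ1 Φ2) := by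
  intro ι _ _ p n ez F1 F2 F3 o K x s r U g u v Q1 Q2 Q3 X X' ht hs hr hez hX h
  exact ⟨m1 ι p n ez F1 F2 F3 o K x s r U g u v Q1 Q2 Q3 X X' ht hs hr hez hX h.1,
    m2 ι p n ez F1 F2 F3 o K x s r U g u v Q1 Q2 Q3 X X' ht hs hr hez hX h.2⟩

theorem pair_and {Φ1 Φ2 : StQ} (H1 : PairQ (FibQ Φ1)) (H2 : PairQ (FibQ Φ2)) (m1 : MonoQ Φ1)
    (m2 : MonoQ Φ2) : PairQ (FibQ (andQ Φ1 Φ2)) :=
  H401.PairQ.andF H1 H2 m1 m2

/-! ### Numbers -/

/-- `V τ y ^ (e0 / 8 - e0 / 32)` in the letters of the price -/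
theorem fin_price {t r s e0 k3 Cf : ℝ} (ht : 0 < t) (ht1 : t ≤ 1) (hr : 1 ≤ r) (hs : 0 < s)
    (hk : k3 ≤ e0 / 32) (hCf : 0 ≤ Cf) (K : ℕ) :
    Cf * (s * 8 ^ K * (2 * (t ^ (1 - k3) * s ^ (1 / 4 : ℝ) * r ^ k3)) *
        (t / r) ^ (e0 / 8 - 2 * (e0 / 64))) ≤
      2 * Cf * (t ^ (1 + e0 / 16) * s ^ (5 / 4 : ℝ) * √(1 : ℝ) * 8 ^ K) * r ^ (-(e0 / 16)) := by
  have hr0 : 0 < r := by linarith
  set E : ℝ := e0 / 8 - 2 * (e0 / 64) with hE
  have e1 : (t / r) ^ E = t ^ E * r ^ (-E) := by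
    rw [Real.div_rpow ht.le hr0.le, Real.rpow_neg hr0.le, div_eq_mul_inv]
  have e2 : s * s ^ (1 / 4 : ℝ) = s ^ (5 / 4 : ℝ) := by
    nth_rewrite 1 [← Real.rpow_one s]
    rw [← Real.rpow_add hs]
    norm_num
  have e3 : t ^ (1 - k3) * t ^ E = t ^ (1 - k3 + E) := (Real.rpow_add ht _ _).symm
  have e4 : r ^ k3 * r ^ (-E) = r ^ (k3 + -E) := (Real.rpow_add hr0 _ _).symm
  have h1 : t ^ (1 - k3 + E) ≤ t ^ (1 + e0 / 16) :=
    Real.rpow_le_rpow_of_exponent_ge ht ht1 (by rw [hE]; linarith)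
  have h2 : r ^ (k3 + -E) ≤ r ^ (-(e0 / 16)) :=
    Real.rpow_le_rpow_of_exponent_le hr (by rw [hE]; linarith)
  have h3 : t ^ (1 - k3 + E) * r ^ (k3 + -E) ≤ t ^ (1 + e0 / 16) * r ^ (-(e0 / 16)) :=
    mul_le_mul h1 h2 (Real.rpow_pos_of_pos hr0 _).le (Real.rpow_pos_of_pos ht _).le
  have h4 : 0 ≤ 2 * Cf * (s ^ (5 / 4 : ℝ) * 8 ^ K) := by
    have : 0 < s ^ (5 / 4 : ℝ) := Real.rpow_pos_of_pos hs _
    positivity
  rw [e1, Real.sqrt_one]
  calc Cf * (s * 8 ^ K * (2 * (t ^ (1 - k3) * s ^ (1 / 4 : ℝ) * r ^ k3)) * (t ^ E * r ^ (-E))) =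
      2 * Cf * ((s * s ^ (1 / 4 : ℝ)) * 8 ^ K) *
        ((t ^ (1 - k3) * t ^ E) * (r ^ k3 * r ^ (-E))) := by ring
    _ = 2 * Cf * (s ^ (5 / 4 : ℝ) * 8 ^ K) * (t ^ (1 - k3 + E) * r ^ (k3 + -E)) := by
      rw [e2, e3, e4]
    _ ≤ 2 * Cf * (s ^ (5 / 4 : ℝ) * 8 ^ K) * (t ^ (1 + e0 / 16) * r ^ (-(e0 / 16))) :=
      mul_le_mul_of_nonneg_left h3 h4
    _ = _ := by ring

/-- `t ^ (1 - k3) r ^ k3` is between `t / r` and `r / t` -/
theorem tr_between {t r k3 : ℝ} (ht : 0 < t) (ht1 : t ≤ 1) (hr : 1 ≤ r) (hk0 : 0 ≤ k3)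
    (hk1 : k3 ≤ 1) : t / r ≤ t ^ (1 - k3) * r ^ k3 ∧ t ^ (1 - k3) * r ^ k3 ≤ (t / r)⁻¹ := by
  have hr0 : 0 < r := by linarith
  have h1 : t ≤ t ^ (1 - k3) := by
    have := Real.rpow_le_rpow_of_exponent_ge ht ht1 (by linarith : 1 - k3 ≤ 1)
    rwa [Real.rpow_one] at this
  have h2 : 1 ≤ r ^ k3 := Real.one_le_rpow hr hk0
  have h3 : t ^ (1 - k3) ≤ 1 := Real.rpow_le_one ht.le ht1 (by linarith)
  have h4 : r ^ k3 ≤ r := by
    have := Real.rpow_le_rpow_of_exponent_le hr hk1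
    rwa [Real.rpow_one] at this
  constructor
  · calc t / r ≤ t := div_le_self ht.le hr
      _ = t * 1 := (mul_one t).symm
      _ ≤ t ^ (1 - k3) * r ^ k3 := mul_le_mul h1 h2 zero_le_one (Real.rpow_pos_of_pos ht _).le
  · calc t ^ (1 - k3) * r ^ k3 ≤ 1 * r := mul_le_mul h3 h4 (by linarith) zero_le_one
      _ = r := one_mul r
      _ ≤ r / t := by
        rw [le_div_iff₀ ht]
        nlinarith
      _ = (t / r)⁻¹ := (inv_div t r).symm

/-- the cap of the third function against `τ` -/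
theorem cC_le {t r s k3 : ℝ} (ht : 0 < t) (ht1 : t ≤ 1) (hr : 1 ≤ r) (hs : 0 < s) (hk0 : 0 ≤ k3)
    (hk1 : k3 ≤ 1) :
    4 * (s ^ (1 / 4 : ℝ) * (t / r)⁻¹) ≤
      2 * (t / r) ^ (-2 : ℝ) * (2 * (t ^ (1 - k3) * s ^ (1 / 4 : ℝ) * r ^ k3)) := by
  have hr0 : 0 < r := by linarith
  have hy : 0 < t / r := div_pos ht hr0
  have hs4 : 0 < s ^ (1 / 4 : ℝ) := Real.rpow_pos_of_pos hs _
  have e1 : (t / r) ^ (-2 : ℝ) = (t / r)⁻¹ * (t / r)⁻¹ := by
    rw [← Real.rpow_neg_one, ← Real.rpow_add hy]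
    norm_num
  have h1 := (tr_between ht ht1 hr hk0 hk1).1
  have hi : 0 < (t / r)⁻¹ := inv_pos.2 hy
  rw [e1]
  calc 4 * (s ^ (1 / 4 : ℝ) * (t / r)⁻¹) =
      4 * s ^ (1 / 4 : ℝ) * ((t / r)⁻¹ * (t / r)⁻¹ * (t / r)) := by
        rw [mul_assoc (t / r)⁻¹, inv_mul_cancel₀ hy.ne', mul_one]
        ring
    _ ≤ 4 * s ^ (1 / 4 : ℝ) * ((t / r)⁻¹ * (t / r)⁻¹ * (t ^ (1 - k3) * r ^ k3)) :=
      mul_le_mul_of_nonneg_left (mul_le_mul_of_nonneg_left h1 (by positivity)) (by positivity)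
    _ = _ := by ring

/-- the level `g` is below the cap of the third function -/
theorem g_le {t r s k3 e : ℝ} (ht : 0 < t) (ht1 : t ≤ 1) (hr : 1 ≤ r) (hs : 0 < s)
    (hk0 : 0 ≤ k3) (hk1 : k3 ≤ 1) (he : 0 ≤ e) :
    (t / r) ^ e * (2 * (t ^ (1 - k3) * s ^ (1 / 4 : ℝ) * r ^ k3)) ≤
      4 * (s ^ (1 / 4 : ℝ) * (t / r)⁻¹) := by
  have hr0 : 0 < r := by linarith
  have hy : 0 < t / r := div_pos ht hr0
  have hy1 : t / r ≤ 1 := by
    rw [div_le_one hr0]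
    linarith
  have hs4 : 0 < s ^ (1 / 4 : ℝ) := Real.rpow_pos_of_pos hs _
  have h1 := (tr_between ht ht1 hr hk0 hk1).2
  have h0 : 0 < t ^ (1 - k3) * r ^ k3 :=
    mul_pos (Real.rpow_pos_of_pos ht _) (Real.rpow_pos_of_pos hr0 _)
  have h2 : (t / r) ^ e ≤ 1 := Real.rpow_le_one hy.le hy1 he
  have hi : 0 < (t / r)⁻¹ := inv_pos.2 hy
  calc (t / r) ^ e * (2 * (t ^ (1 - k3) * s ^ (1 / 4 : ℝ) * r ^ k3)) ≤
      1 * (2 * (t ^ (1 - k3) * s ^ (1 / 4 : ℝ) * r ^ k3)) :=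
        mul_le_mul_of_nonneg_right h2 (by
          have := Real.rpow_pos_of_pos ht (1 - k3)
          have := Real.rpow_pos_of_pos hr0 k3
          positivity)
    _ = 2 * s ^ (1 / 4 : ℝ) * (t ^ (1 - k3) * r ^ k3) := by ring
    _ ≤ 4 * s ^ (1 / 4 : ℝ) * (t / r)⁻¹ :=
        mul_le_mul (by linarith) h1 h0.le (by positivity)
    _ = _ := by ring

/-! ### The price -/

/-- the price of the part with the slot `Th`, `ez = 1` -/
theorem pq_NT (H0 : StageY1) {q : ℝ} (hq : 0 ≤ q) (h1 : PairQ (FibQ SCapG))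
    (h2 : PairQ (FibQ SABg)) (h3 : PairQ (FibQ SCA)) (h4 : PairQ (FibQ SBCg))
    (h5 : PairQ (FibQ SCA1)) (h6 : PairQ (FibQ (SBC1g q))) :
    PartQ fun ι _ _ p _n ez F1 F2 F3 o K x s r U g u v Q1 _Q2 Q3 B => ez = 1 →
      H401.FibU p K x s r U u → H401.FibP p K x s r U v →
      ∀ sg : ℕ → Pt → ℝ, (∀ k m, |sg k m| ≤ 1) →
        H652.NT ι (p.lam s r) o (p.al U K) K x u (cA p s r U K g F1 Q1) (cb p s r U K u F3 Q3)
          (mC p U K v F2) sg ≤ B := by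
  obtain ⟨Cst, hCst, HC⟩ := H0
  have H := pair_and h1 (pair_and h2 (pair_and h3 (pair_and h4 (pair_and h5 h6 mono_CA1
    (mono_BC1 q)) mono_BC (mono_and mono_CA1 (mono_BC1 q))) mono_CA
    (mono_and mono_BC (mono_and mono_CA1 (mono_BC1 q)))) mono_AB
    (mono_and mono_CA (mono_and mono_BC (mono_and mono_CA1 (mono_BC1 q))))) mono_Cap
    (mono_and mono_AB (mono_and mono_CA (mono_and mono_BC (mono_and mono_CA1 (mono_BC1 q)))))
  unfold PartQ PartY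
  intro a ha ha1
  obtain ⟨es, hes, H⟩ := H a ha ha1
  refine ⟨es, hes, fun e0 he0 he0' => ?_⟩
  obtain ⟨k8s, hk8s, H⟩ := H e0 he0 he0'
  refine ⟨k8s, hk8s, fun k8 hk8 hk8' => ?_⟩
  obtain ⟨k3s, hk3s, H⟩ := H k8 hk8 hk8'
  refine ⟨min k3s (min 1 (e0 / 32)), lt_min hk3s (lt_min one_pos (by positivity)),
    fun k3 hk3 hk3' => ?_⟩
  have hk31 : k3 ≤ 1 := hk3'.trans ((min_le_right _ _).trans (min_le_left _ _))
  have hk32 : k3 ≤ e0 / 32 := hk3'.trans ((min_le_right _ _).trans (min_le_right _ _))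
  obtain ⟨c1, d0, hc1, hd0, H⟩ := H k3 hk3 (hk3'.trans (min_le_left _ _)) (e0 / 64)
    (by positivity)
  refine ⟨e0 / 16, c1, d0, e0 / 16, by positivity, hc1, hd0, by positivity,
    fun c hc hcc d hd hdd Kt e cP L hK he hcP hL => ?_⟩
  obtain ⟨C, hC, H⟩ := H c hc hcc d hd hdd Kt e cP L hK he hcP hL
  obtain ⟨Cf, hCf, R⟩ := H688.raw_close (Cst := Cst) (e0 := e0) (δ := e0 / 64) (C := C) (q := q)
    (Cc := 2) (qc := 2) hCst he0 (by positivity) hC hq (by norm_num) (by norm_num)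
  refine ⟨1, le_rfl, 2 * Cf, by positivity, ?_⟩
  intro t ht ht1 n ez F1 F2 F3 f1 f3 f2 o ho K hKn x ι _ _ s r U g u v hs hr hcls Q1 Q2 Q3 q1 q2 q3
    hez fu fv sg _
  subst hez
  have hr0 : 0 < r := by linarith
  have hy : 0 < t / r := div_pos ht hr0
  have hy1 : t / r ≤ 1 := by
    rw [div_le_one hr0]
    linarith
  set p : H401.Num := ⟨a, e0, k8, k3, c, d, Kt, e, cP, L, 1, t⟩ with hp
  obtain ⟨g1, g2, g3, g4, g5, g6⟩ := H t ht ht1 n 1 F1 F2 F3 f1 f3 f2 o ho K hKn x ι s r U g u v hs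
    hr hcls Q1 Q2 Q3 q1 q2 q3 one_pos fu fv
  have hτ : 0 < tauI p s r := tau_pos ht hs hr
  have hbe : 0 < beI p r := Real.rpow_pos_of_pos hy _
  have hl : 0 < p.lam s r := H401.Num.lam_pos ht hs hr
  have hcC : 0 < cCI p s r := by
    unfold H408.cCI
    have : 0 < s ^ (1 / 4 : ℝ) := Real.rpow_pos_of_pos hs _
    have : 0 < (t / r)⁻¹ := inv_pos.2 hy
    show 0 < 4 * (s ^ (1 / 4 : ℝ) * (t / r)⁻¹)
    positivity
  have e : H652.NT ι (p.lam s r) o (p.al U K) K x u (cA p s r U K g F1 Q1)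
      (cb p s r U K u F3 Q3) (mC p U K v F2) sg =
      TTf ι (p.al U K) o K (cx K x) sg (p.lam s r) u (cA p s r U K g F1 Q1)
        (cb p s r U K u F3 Q3) (C1 p 1 U K v F2) := by
    rw [H163.C1_one]
    rfl
  rw [e]
  refine (R (t / r) (s * 8 ^ K) (tauI p s r) (cCI p s r) _
    (fun h => PABg h ι (p.al U K) o K (cx K x) (fun _ _ => 0) (p.lam s r) u
      (cA p s r U K g F1 Q1) (cb p s r U K u F3 Q3) (C1 p 1 U K v F2))
    (fun y z => PBCg (beI p r) y z ι (p.al U K) o K (cx K x) (fun _ _ => 0) (p.lam s r) u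
      (cA p s r U K g F1 Q1) (cb p s r U K u F3 Q3) (C1 p 1 U K v F2))
    (fun z y => PCAf (beI p r) z y ι (p.al U K) o K (cx K x) (fun _ _ => 0) (p.lam s r) u
      (cA p s r U K g F1 Q1) (cb p s r U K u F3 Q3) (C1 p 1 U K v F2))
    hy hy1 (by positivity) hτ hcC (cC_le ht ht1 hr hs hk3.le hk31)
    (g_le ht ht1 hr hs hk3.le hk31 (by positivity)) ?_ g2 g3 g4 g5 g6 ?_).trans ?_
  · intro z y hz hy'
    show 0 ≤ PCAf (beI p r) z y ι (p.al U K) o K (cx K x) (fun _ _ => 0) (p.lam s r) u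
      (cA p s r U K g F1 Q1) (cb p s r U K u F3 Q3) (C1 p 1 U K v F2)
    unfold H408.PCAf H408.SN
    exact sum_nonneg fun _ _ => sum_nonneg fun _ _ => sum_nonneg fun _ _ => sum_nonneg fun _ _ =>
      H688.rCA_nonneg _ _ _ _ hz hy'
  · intro P₀ P₁ QA QB Z κ' gg σ e₂ D L₀ L₁ a1 a2 a3 a4 a5 a6 a7 a8 a9 a10 b1 b2 b3 b4 b5 b6 b7
    exact H228.Gauge.TTf_leG HC hbe hl hτ hcC a1 a2 a3 a4 a5 a6 a7 a8 a9 a10 g1 b1 b2 b3 b4 b5 b6
      b7
  · exact fin_price ht ht1 hr hs hk32 hCf K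

/-- **The price of the part with the slot `Th`** from the six number leaves. -/
theorem cstF_NT {q : ℝ} (hq : 0 ≤ q) (h1 : PairQ (FibQ SCapG))
    (h2 : PairQ (FibQ SABg)) (h3 : PairQ (FibQ SCA)) (h4 : PairQ (FibQ SBCg))
    (h5 : PairQ (FibQ SCA1)) (h6 : PairQ (FibQ (SBC1g q))) : CStF H652.NT := by
  unfold H401.CStF
  refine H163.PartQ.of_one ?_ ?_ (pq_NT H501.StageM.stageY1 hq h1 h2 h3 h4 h5 h6)
  · intro ι _ _ p n ez F1 F2 F3 o K x s r U g u v Q1 Q2 Q3 B w hw h fu fv sg hsg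
    rw [H163.mC_dv p U K v F2 hw]
    exact (H163.hom_NT ι _ o _ K x u _ _ _ sg (√w) (Real.sqrt_nonneg w)).trans
      (mul_le_mul_of_nonneg_left (h fu fv sg hsg) (Real.sqrt_nonneg w))
  · intro ι _ _ p n ez F1 F2 F3 o K x s r U g u v Q1 Q2 Q3 B h fu fv sg hsg
    exact H163.le_of_near fun δ hδ => by
      obtain ⟨B', h1, h2⟩ := h δ hδ
      exact ⟨B', h1, h2 fu fv sg hsg⟩

/-- **The increasing part**, both dense sets cut off, from the six number leaves: the caps, the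
static pairs and the pair at the hub `x3` for all class data, the pair at the hub `x1` for data
with small fibres. -/
theorem cstUV_NI {q : ℝ} (hq : 0 ≤ q) (h1 : PairQ SCapG) (h2 : PairQ SABg) (h3 : PairQ SCA)
    (h4 : PairQ (FibQ SBCg)) (h5 : PairQ SCA1) (h6 : PairQ (FibQ (SBC1g q))) :
    CStUV DuS DvS NI :=
  (H401.cstF_NI (cstF_NT hq (H401.PairQ.toF h1) (H401.PairQ.toF h2) (H401.PairQ.toF h3) h4
    (H401.PairQ.toF h5) h6)).toUV

end

end Vale.Agent.P141.H595
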